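import Vale.Agent.P188.H235.Grid
import Vale.Agent.P188.H235.EBox
import Vale.Agent.P188.H382.IdxStep

/-!
# P188, route A, block hinput (D2): the grid of exponential coordinates gives `BoxesI`
-/

set_option linter.all false

open MeasureTheory Set Filter Topology
open scoped Pointwise
open Vale.Agent.P188.Z1
open Vale.Agent.P188.H235
open Vale.Agent.P188.H382 (BoxesI)

namespace Vale.Agent.P188.H540

variable {S : Type} [Group S] [MeasurableSpace S] {Γ : Type} [Group Γ]
  {V : Type} [AddCommGroup V] [Module ℝ V] {k : ℕ} {M : RModel S Γ V k} {B : M.NatBox} {d : ℕ}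

/-- the grid points are in the box -/
theorem mem_LP_iff {K : Set (Fin d → ℝ)} {q : ℝ} (hq : 0 < q) (n : Fin d → ℤ) :
    n ∈ LP K q ↔ q⁻¹ • vec n ∈ K := by
  show vec n ∈ q • K ↔ _
  rw [Set.mem_smul_set_iff_inv_smul_mem₀ hq.ne']

/-- the shift of the grid, modulo commutators -/
theorem grid_shift (c : EChart M B d) (u v w : Fin d → ℝ) :
    (c.P u * ((c.P v)⁻¹ * c.P w))⁻¹ * c.P (u - v + w) ∈ (⁅M.E, M.E⁆ : Subgroup S) := by
  haveI := M.E_normal
  have h1 := c.add u (-v)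
  have h2 := c.add (u + -v) w
  rw [c.neg] at h1
  have e1 : (c.P u * ((c.P v)⁻¹ * c.P w))⁻¹ * c.P (u - v + w) =
      ((c.P w)⁻¹ * ((c.P u * (c.P v)⁻¹)⁻¹ * c.P (u + -v)) * (c.P w)⁻¹⁻¹) *
      ((c.P (u + -v) * c.P w)⁻¹ * c.P (u + -v + w)) := by
    rw [← sub_eq_add_neg u v]
    group
  rw [e1]
  refine Subgroup.mul_mem _ ?_ h2
  exact (inferInstance : (⁅M.E, M.E⁆ : Subgroup S).Normal).conj_mem _ h1 _

/-- **(D2a)** -/
theorem boxesI_grid (c : EChart M B d) {R : M.ι → ℝ} (hR : ∀ i, 0 < R i) {q : ℝ}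
    (hq : GridP d {x | c.P x ∈ B.Bx R} q) {C1 R1 : ℕ}
    (hlen : ∀ x ∈ B.Bx R, x ∈ M.E → M.l x ≤ C1 * R1) :
    BoxesI (fun n : Fin d → ℤ => c.P (q⁻¹ • vec n)) M.l M.E C1 (Mg d) R1 hq.fin.toFinset
      (hq.fin.subset hq.sub).toFinset := by
  classical
  have hq0 := hq.q_pos
  refine ⟨?_, ?_, ?_, ?_, ?_, ?_⟩
  · exact ⟨0, by rw [Set.Finite.mem_toFinset]; exact hq.ne⟩
  · intro n hn
    rw [Set.Finite.mem_toFinset] at hn ⊢
    exact hq.sub hn
  · intro n _
    exact c.mem _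
  · intro n hn
    rw [Set.Finite.mem_toFinset, mem_LP_iff hq0] at hn
    exact hlen _ hn (c.mem _)
  · rw [← Set.ncard_eq_toFinset_card _ hq.fin, ← Set.ncard_eq_toFinset_card _ _]
    exact hq.card
  · intro a ha b hb
    rw [Set.Finite.mem_toFinset] at ha hb
    have hfin : {n | n ∈ LP {x | c.P x ∈ B.Bx R} q ∧ n - a + b ∈ LP {x | c.P x ∈ B.Bx R} q}.Finite :=
      hq.fin.subset fun n hn => hn.1
    refine ⟨hfin.toFinset, fun n => n - a + b, ?_, ?_, ?_, ?_, ?_⟩
    · intro n hn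
      rw [Set.Finite.mem_toFinset] at hn ⊢
      exact hn.1
    · rw [← Set.ncard_eq_toFinset_card _ hq.fin, ← Set.ncard_eq_toFinset_card _ hfin]
      exact hq.shift a ha b hb
    · intro n _ n' _ h
      have h' : n - a + b = n' - a + b := h
      have h2 := add_right_cancel h'
      exact sub_left_injective h2
    · intro n hn
      rw [Set.Finite.mem_toFinset] at hn ⊢
      exact hn.2
    · intro n _
      have e1 : q⁻¹ • vec (n - a + b) = q⁻¹ • vec n - q⁻¹ • vec a + q⁻¹ • vec b := by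
        rw [vec_shift, smul_add, smul_sub]
      show (c.P (q⁻¹ • vec n) * ((c.P (q⁻¹ • vec a))⁻¹ * c.P (q⁻¹ • vec b)))⁻¹ *
        c.P (q⁻¹ • vec (n - a + b)) ∈ _
      rw [e1]
      exact grid_shift c _ _ _

/-- a product of `m` exponentials of vectors of size `T` -/
theorem prod_nm_le (M : RModel S Γ V k) (m : ℕ) : ∃ (A a : ℝ), 1 ≤ A ∧ 1 ≤ a ∧
    ∀ T : ℝ, 1 ≤ T → ∀ v : Fin m → V, (∀ t, M.nm (v t) ≤ T) →
      ∀ u, M.ex u = (List.ofFn fun t => M.ex (v t)).prod → M.nm u ≤ A * T ^ a := by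
  have hC0 := M.one_le_C0
  induction m with
  | zero =>
    refine ⟨1, 1, le_rfl, le_rfl, fun T hT v _ u hu => ?_⟩
    rw [List.ofFn_zero, List.prod_nil, ← M.ex_zero] at hu
    rw [M.ex_inj hu, map_zero]
    positivity
  | succ m ih =>
    obtain ⟨A, a, hA, ha, H⟩ := ih
    refine ⟨M.C0 * (2 + A) ^ M.C0, a * M.C0, ?_, by nlinarith, fun T hT v hv u hu => ?_⟩
    · have h1 : (1 : ℝ) ≤ (2 + A) ^ M.C0 := Real.one_le_rpow (by linarith) (by linarith)
      nlinarith
    rw [List.ofFn_succ, List.prod_cons] at hu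
    obtain ⟨w, hw⟩ := M.ex_of_η (List.ofFn fun t => M.ex (v (Fin.succ t))).prod (by
      rw [map_list_prod]
      apply List.prod_eq_one
      intro x hx
      rw [List.mem_map] at hx
      obtain ⟨y, hy, rfl⟩ := hx
      rw [List.mem_ofFn] at hy
      obtain ⟨t, rfl⟩ := hy
      exact M.η_ex _)
    rw [← hw] at hu
    have h1 := H T hT (fun t => v (Fin.succ t)) (fun t => hv _) w hw
    have h2 := M.ex_mul_le (v 0) w u hu.symm
    have hT0 : (0 : ℝ) < T := by linarith
    have h3 : T ≤ T ^ a := by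
      conv_lhs => rw [← Real.rpow_one T]
      exact Real.rpow_le_rpow_of_exponent_le hT ha
    have h4 : (1 : ℝ) ≤ T ^ a := hT.trans h3
    have h5 : 1 + M.nm (v 0) + M.nm w ≤ (2 + A) * T ^ a := by
      have := hv 0
      nlinarith
    have h6 : 0 ≤ 1 + M.nm (v 0) + M.nm w := by
      have := apply_nonneg M.nm (v 0)
      have := apply_nonneg M.nm w
      linarith
    calc M.nm u ≤ M.C0 * (1 + M.nm (v 0) + M.nm w) ^ M.C0 := h2
      _ ≤ M.C0 * ((2 + A) * T ^ a) ^ M.C0 := by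
          apply mul_le_mul_of_nonneg_left _ (by linarith)
          exact Real.rpow_le_rpow h6 h5 (by linarith)
      _ = M.C0 * (2 + A) ^ M.C0 * T ^ (a * M.C0) := by
          rw [Real.mul_rpow (by linarith) (by positivity), ← Real.rpow_mul hT0.le]
          ring

/-- **(D2b)** length of the elements of `E` in the natural boxes -/
theorem len_box (B : M.NatBox) {c₂ : ℝ} (hc₂ : 0 < c₂) : ∃ CL : ℝ, 0 < CL ∧ ∀ d₁ s : ℝ, 0 < d₁ →
    d₁ ≤ 1 → 1 ≤ s → ∀ h, M.HB c₂ h → ∀ x ∈ B.Bx (M.szh h d₁ s), x ∈ M.E →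
      (M.l x : ℝ) ≤ CL * s := by
  classical
  have hC0 := M.one_le_C0
  have hBC := B.one_le
  obtain ⟨A, a, hA, ha, H⟩ := prod_nm_le M B.m
  set c' : ℝ := max 1 c₂⁻¹ with hc'
  have hc'1 : 1 ≤ c' := le_max_left _ _
  have hlogA : 0 ≤ Real.log (2 * A) := Real.log_nonneg (by linarith)
  have hlogB : 0 ≤ Real.log B.C := Real.log_nonneg hBC
  refine ⟨M.C0 * (1 + Real.log (2 * A) + a * (Real.log B.C + c')), by positivity, ?_⟩
  intro d₁ s hd hd1 hs h hh x hx hxE
  obtain ⟨v, hv, hvx⟩ := (M.mem_E x).1 hxE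
  obtain ⟨y, hy, hxy⟩ := B.gen _ (fun i => (by
    unfold RModel.szh
    split_ifs <;> positivity : 0 ≤ M.szh h d₁ s i)) x hx
  have hsz : ∀ i, M.szh h d₁ s i ≤ Real.exp (c' * s) := by
    intro i
    unfold RModel.szh
    split_ifs with hi
    · apply Real.exp_le_exp.2
      nlinarith
    · apply Real.exp_le_exp.2
      have h1 := (hh _ ((M.wt_mem i).resolve_right hi)).2
      have h2 : c₂⁻¹ ≤ c' := le_max_right _ _
      nlinarith
  set T : ℝ := B.C * Real.exp (c' * s) with hT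
  have hE1 : 1 ≤ Real.exp (c' * s) := Real.one_le_exp (by positivity)
  have hT1 : 1 ≤ T := by nlinarith
  have hT0 : 0 < T := by linarith
  have h1 : M.nm v ≤ A * T ^ a := by
    refine H T hT1 (fun t => y t • M.X (B.J t)) (fun t => ?_) v (by rw [hvx]; exact hxy)
    rw [map_smul_eq_mul, Real.norm_eq_abs]
    calc |y t| * M.nm (M.X (B.J t)) ≤ (B.C * M.szh h d₁ s (B.J t)) * 1 := by
          refine mul_le_mul (hy t) (M.X_le _) (apply_nonneg _ _) ?_
          exact (abs_nonneg _).trans (hy t)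
      _ ≤ T := by
          rw [mul_one, hT]
          exact mul_le_mul_of_nonneg_left (hsz _) (by linarith)
  have h2 := M.met_e v hv
  rw [hvx] at h2
  have h3 : (1 : ℝ) ≤ T ^ a := Real.one_le_rpow hT1 (by linarith)
  have h4 : Real.log (1 + M.nm v) ≤ Real.log (2 * A) + a * (Real.log B.C + c' * s) := by
    have h5 : 1 + M.nm v ≤ 2 * A * T ^ a := by nlinarith
    have h6 : 0 < 1 + M.nm v := by
      have := apply_nonneg M.nm v
      linarith
    refine (Real.log_le_log h6 h5).trans (le_of_eq ?_)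
    rw [Real.log_mul (by positivity) (by positivity), Real.log_rpow hT0, hT,
      Real.log_mul (by positivity) (Real.exp_pos _).ne', Real.log_exp]
  have h5 : Real.log (2 * A) + a * (Real.log B.C + c' * s) ≤
      (Real.log (2 * A) + a * (Real.log B.C + c')) * s := by
    have e1 : Real.log (2 * A) * 1 ≤ Real.log (2 * A) * s := mul_le_mul_of_nonneg_left hs hlogA
    have e2 : a * Real.log B.C * 1 ≤ a * Real.log B.C * s :=
      mul_le_mul_of_nonneg_left hs (by positivity)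
    linarith
  calc (M.l x : ℝ) ≤ M.C0 * (1 + Real.log (1 + M.nm v)) := h2
    _ ≤ M.C0 * (s + (Real.log (2 * A) + a * (Real.log B.C + c')) * s) := by
        apply mul_le_mul_of_nonneg_left _ (by linarith)
        linarith
    _ = M.C0 * (1 + Real.log (2 * A) + a * (Real.log B.C + c')) * s := by ring

end Vale.Agent.P188.H540
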