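import Mathlib.MeasureTheory.Constructions.BorelSpace.Real
import Mathlib.Tactic

/-!
# P188, block DBOX, part 1: windows with small boundary in the quotient `Q = S / E`

`lQ` is a length on `Q`, the `b j` are finitely many additive functions.  The windows
`Kw p r = {lQ ≤ r, b j ≤ p j}` have small boundary at scale `κ s` for a good choice of the radius
`r` (pigeonhole); no choice is needed for the facets (translates of the layers are disjoint).
-/

set_option linter.all false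

open MeasureTheory Set

namespace Vale.Agent.P188.H540

variable {Q J : Type*} [Group Q] [MeasurableSpace Q]

/-- a window -/
def Kw (lQ : Q → ℝ) (b : J → Q → ℝ) (p : J → ℝ) (r : ℝ) : Set Q :=
  {z | lQ z ≤ r ∧ ∀ j, b j z ≤ p j}

/-- Length and additive functions on the quotient group. -/
structure QLen (ν : Measure Q) (lQ : Q → ℝ) (b : J → Q → ℝ) (C β : ℝ) (t : J → Q) : Prop where
  C_pos : 1 ≤ C
  β_pos : 0 < β
  mul_meas : ∀ g : Q, Measurable fun x : Q => x * g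
  l_meas : Measurable lQ
  b_meas : ∀ j, Measurable (b j)
  l_one : lQ 1 = 0
  l_nonneg : ∀ x, 0 ≤ lQ x
  l_mul : ∀ x y, lQ (x * y) ≤ lQ x + lQ y
  l_inv : ∀ x, lQ x⁻¹ = lQ x
  b_mul : ∀ j x y, b j (x * y) = b j x + b j y
  b_le : ∀ j x, |b j x| ≤ C * lQ x
  t_b : ∀ j, β ≤ b j (t j)
  t_l : ∀ j, lQ (t j) ≤ C
  inv : ∀ j r a c g, ν {z | lQ (z * g) ≤ r ∧ a < b j (z * g) ∧ b j (z * g) ≤ c} =
    ν {z | lQ z ≤ r ∧ a < b j z ∧ b j z ≤ c}

variable {ν : Measure Q} {lQ : Q → ℝ} {b : J → Q → ℝ} {C β : ℝ} {t : J → Q}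

namespace QLen

theorem l_pow (h : QLen ν lQ b C β t) (x : Q) (n : ℕ) : lQ (x ^ n) ≤ n * lQ x := by
  induction n with
  | zero => simp [h.l_one]
  | succ n ih =>
    rw [pow_succ]
    have := h.l_mul (x ^ n) x
    push_cast
    linarith

theorem b_one (h : QLen ν lQ b C β t) (j : J) : b j 1 = 0 := by
  have := h.b_mul j 1 1
  rw [mul_one] at this
  linarith

theorem b_pow (h : QLen ν lQ b C β t) (j : J) (x : Q) (n : ℕ) : b j (x ^ n) = n * b j x := by
  induction n with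
  | zero => simp [h.b_one]
  | succ n ih =>
    rw [pow_succ, h.b_mul, ih]
    push_cast
    ring

theorem meas_Kw (h : QLen ν lQ b C β t) [Countable J] (p : J → ℝ) (r : ℝ) :
    MeasurableSet (Kw lQ b p r) := by
  have : Kw lQ b p r = {z | lQ z ≤ r} ∩ ⋂ j, {z | b j z ≤ p j} := by
    ext z; simp [Kw]
  rw [this]
  exact (measurableSet_le h.l_meas measurable_const).inter
    (MeasurableSet.iInter fun j => measurableSet_le (h.b_meas j) measurable_const)

theorem meas_layer (h : QLen ν lQ b C β t) (j : J) (r a c : ℝ) :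
    MeasurableSet {z | lQ z ≤ r ∧ a < b j z ∧ b j z ≤ c} := by
  have : {z | lQ z ≤ r ∧ a < b j z ∧ b j z ≤ c} =
    {z | lQ z ≤ r} ∩ ({z | a < b j z} ∩ {z | b j z ≤ c}) := by ext z; simp
  rw [this]
  exact (measurableSet_le h.l_meas measurable_const).inter
    ((measurableSet_lt measurable_const (h.b_meas j)).inter
      (measurableSet_le (h.b_meas j) measurable_const))

/-- windows grow under right multiplication -/
theorem mul_mem_Kw (h : QLen ν lQ b C β t) {p : J → ℝ} {r ρ : ℝ} {z g : Q}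
    (hz : z ∈ Kw lQ b p r) (hg : lQ g ≤ ρ) : z * g ∈ Kw lQ b (fun j => p j + C * ρ) (r + ρ) := by
  refine ⟨(h.l_mul z g).trans (add_le_add hz.1 hg), fun j => ?_⟩
  rw [h.b_mul]
  have h1 := (abs_le.1 (h.b_le j g)).2
  have h2 := hz.2 j
  have h3 : C * lQ g ≤ C * ρ := mul_le_mul_of_nonneg_left hg (by linarith [h.C_pos])
  show b j z + b j g ≤ p j + C * ρ
  linarith

theorem ball_sub_Kw (h : QLen ν lQ b C β t) {p : J → ℝ} {r c : ℝ}
    (hc : c ≤ r) (hp : ∀ j, C * c ≤ p j) : {z | lQ z ≤ c} ⊆ Kw lQ b p r := by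
  intro z hz
  refine ⟨le_trans hz hc, fun j => ?_⟩
  have h1 := (abs_le.1 (h.b_le j z)).2
  have h3 : C * lQ z ≤ C * c := mul_le_mul_of_nonneg_left hz (by linarith [h.C_pos])
  linarith [hp j]

/-- **facet layers**: a layer has `N` disjoint translates inside a bigger ball. -/
theorem layer_le (h : QLen ν lQ b C β t) (j : J) (r a c : ℝ) (N n0 : ℕ) (hn0 : c - a ≤ n0 * β) :
    N * ν {z | lQ z ≤ r ∧ a < b j z ∧ b j z ≤ c} ≤ ν {z | lQ z ≤ r + N * (n0 * C)} := by
  classical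
  set A : ℕ → Set Q := fun i => {z | lQ (z * (t j ^ n0) ^ i) ≤ r ∧ a < b j (z * (t j ^ n0) ^ i) ∧
    b j (z * (t j ^ n0) ^ i) ≤ c} with hA
  have hm := h.meas_layer j r a c
  have hb : ∀ (z : Q) (i : ℕ), b j (z * (t j ^ n0) ^ i) = b j z + i * (n0 * b j (t j)) := by
    intro z i
    rw [h.b_mul, h.b_pow, h.b_pow]
  have hβ : c - a ≤ n0 * b j (t j) :=
    hn0.trans (mul_le_mul_of_nonneg_left (h.t_b j) (Nat.cast_nonneg _))
  have hlt : ∀ i i' : ℕ, i < i' → Disjoint (A i) (A i') := by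
    intro i i' hi
    rw [Set.disjoint_left]
    rintro z ⟨_, h1, h2⟩ ⟨_, h3, h4⟩
    rw [hb] at h1 h2 h3 h4
    have h5 : (i : ℝ) + 1 ≤ i' := by exact_mod_cast hi
    have h6 : (0 : ℝ) ≤ n0 * b j (t j) :=
      mul_nonneg (Nat.cast_nonneg _) (h.β_pos.le.trans (h.t_b j))
    nlinarith
  have hsub : ∀ i < N, A i ⊆ {z | lQ z ≤ r + N * (n0 * C)} := by
    rintro i hi z ⟨h1, _⟩
    have h2 : z = (z * (t j ^ n0) ^ i) * ((t j ^ n0) ^ i)⁻¹ := by group
    have h3 : lQ ((t j ^ n0) ^ i) ≤ i * (n0 * C) := by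
      refine (h.l_pow _ i).trans (mul_le_mul_of_nonneg_left ?_ (Nat.cast_nonneg _))
      exact (h.l_pow _ n0).trans (mul_le_mul_of_nonneg_left (h.t_l j) (Nat.cast_nonneg _))
    have h4 : (i : ℝ) * (n0 * C) ≤ N * (n0 * C) := by
      apply mul_le_mul_of_nonneg_right
      · exact_mod_cast hi.le
      · have := h.C_pos; positivity
    show lQ z ≤ _
    rw [h2]
    have h5 := h.l_mul (z * (t j ^ n0) ^ i) ((t j ^ n0) ^ i)⁻¹
    rw [h.l_inv] at h5
    linarith
  have hAi : ∀ i, ν (A i) = ν {z | lQ z ≤ r ∧ a < b j z ∧ b j z ≤ c} := fun i =>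
    h.inv j r a c _
  have hmA : ∀ i, MeasurableSet (A i) := fun i => h.mul_meas _ hm
  calc (N : ENNReal) * ν {z | lQ z ≤ r ∧ a < b j z ∧ b j z ≤ c}
      = ∑ i ∈ Finset.range N, ν (A i) := by
        rw [Finset.sum_congr rfl fun i _ => hAi i, Finset.sum_const, Finset.card_range,
          nsmul_eq_mul]
    _ = ν (⋃ i ∈ Finset.range N, A i) := by
        rw [measure_biUnion_finset _ fun i _ => hmA i]
        intro i _ i' _ hii
        rcases lt_or_gt_of_ne hii with h1 | h1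
        · exact hlt i i' h1
        · exact (hlt i' i h1).symm
    _ ≤ ν {z | lQ z ≤ r + N * (n0 * C)} := by
        refine measure_mono ?_
        intro z hz
        simp only [mem_iUnion, Finset.mem_range] at hz
        obtain ⟨i, hi, hz⟩ := hz
        exact hsub i hi hz

end QLen

/-- **pigeonhole** -/
theorem exists_small_step (F : ℝ → ENNReal) (hF : Monotone F) (x0 δ : ℝ) (N : ℕ) (hN : 1 ≤ N) :
    ∃ i < N, F (x0 + (i + 1 : ℕ) * δ) ≤ F (x0 + i * δ) + F (x0 + N * δ) / N := by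
  by_contra hcon
  push Not at hcon
  have hN0 : (N : ENNReal) ≠ 0 := by exact_mod_cast (by omega : N ≠ 0)
  have h1 : ∀ i ≤ N, (i : ENNReal) * (F (x0 + N * δ) / N) ≤ F (x0 + i * δ) := by
    intro i
    induction i with
    | zero => intro _; simp
    | succ i ih =>
      intro hi
      have h2 := ih (by omega)
      have h3 := hcon i (by omega)
      calc ((i + 1 : ℕ) : ENNReal) * (F (x0 + N * δ) / N)
          = i * (F (x0 + N * δ) / N) + F (x0 + N * δ) / N := by push_cast; ring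
        _ ≤ F (x0 + i * δ) + F (x0 + N * δ) / N := by gcongr
        _ ≤ _ := h3.le
  obtain ⟨M, rfl⟩ : ∃ M, N = M + 1 := ⟨N - 1, by omega⟩
  have h2 := h1 M (by omega)
  have h3 := hcon M (by omega)
  by_cases htop : F (x0 + (M + 1 : ℕ) * δ) = ⊤
  · rw [htop, ENNReal.top_div_of_ne_top (ENNReal.natCast_ne_top _)] at h3
    simp at h3
  · have h4 : F (x0 + (M + 1 : ℕ) * δ) = ((M + 1 : ℕ) : ENNReal) *
        (F (x0 + (M + 1 : ℕ) * δ) / ((M + 1 : ℕ) : ENNReal)) := by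
      rw [ENNReal.mul_div_cancel hN0 (ENNReal.natCast_ne_top _)]
    have h5 : F (x0 + (M + 1 : ℕ) * δ) ≤ F (x0 + M * δ) + F (x0 + (M + 1 : ℕ) * δ) /
        ((M + 1 : ℕ) : ENNReal) := by
      calc F (x0 + (M + 1 : ℕ) * δ) = ((M + 1 : ℕ) : ENNReal) *
          (F (x0 + (M + 1 : ℕ) * δ) / ((M + 1 : ℕ) : ENNReal)) := h4
        _ = M * (F (x0 + (M + 1 : ℕ) * δ) / ((M + 1 : ℕ) : ENNReal)) +
            (F (x0 + (M + 1 : ℕ) * δ) / ((M + 1 : ℕ) : ENNReal)) := by push_cast; ring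
        _ ≤ _ := by gcongr
    exact absurd h3 (not_lt.2 h5)

namespace QLen

/-- two windows differ by one radius layer and the facet layers -/
theorem Kw_sub (lQ : Q → ℝ) (b : J → Q → ℝ) (p1 p2 : J → ℝ) (r1 r2 : ℝ) :
    Kw lQ b p2 r2 ⊆ Kw lQ b p1 r1 ∪ ({z | r1 < lQ z ∧ lQ z ≤ r2} ∪
      ⋃ j, {z | lQ z ≤ r2 ∧ p1 j < b j z ∧ b j z ≤ p2 j}) := by
  rintro z ⟨h1, h2⟩
  by_cases h3 : lQ z ≤ r1
  · by_cases h4 : ∀ j, b j z ≤ p1 j
    · exact Or.inl ⟨h3, h4⟩
    · push Not at h4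
      obtain ⟨j, hj⟩ := h4
      exact Or.inr (Or.inr (mem_iUnion.2 ⟨j, h1, hj, h2 j⟩))
  · exact Or.inr (Or.inl ⟨not_le.1 h3, h1⟩)

/-- **KBOX**: there is a good radius `r1 ∈ [C1 s, (C1 + 1) s]`, independent of the window `p`, such
that the window has small boundary at the scale `κ s`. -/
theorem kbox (h : QLen ν lQ b C β t) [Fintype J] (N : ℕ) (hN : 1 ≤ N) {C1 s κ : ℝ}
    (hs : 0 < s) (hκ : 0 < κ) (hκN : 2 * κ * N ≤ 1) (hκβ : 4 * C ^ 2 * N * κ ≤ β)
    (hκs : β ≤ 2 * C * κ * s)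
    (hfin : ν {z | lQ z ≤ (C1 + 3) * s} ≠ ⊤) :
    ∃ r1, C1 * s + κ * s ≤ r1 ∧ r1 + κ * s ≤ (C1 + 1) * s ∧ ∀ p : J → ℝ,
      ν (Kw lQ b (fun j => p j + C * (κ * s)) (r1 + κ * s)) ≤
        ν (Kw lQ b (fun j => p j - C * (κ * s)) (r1 - κ * s)) +
          (1 + Fintype.card J) / N * ν {z | lQ z ≤ (C1 + 3) * s} := by
  set F : ℝ → ENNReal := fun r => ν {z | lQ z ≤ r} with hF
  have hFm : Monotone F := fun r r' hr => measure_mono fun z hz => le_trans hz hr
  have hN0 : (N : ENNReal) ≠ 0 := by exact_mod_cast (by omega : N ≠ 0)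
  have hNr : (1 : ℝ) ≤ N := by exact_mod_cast hN
  have hκs0 : 0 < κ * s := mul_pos hκ hs
  have hC := h.C_pos
  obtain ⟨i, hi, hi2⟩ := exists_small_step F hFm (C1 * s) (2 * κ * s) N hN
  have hiN : (i : ℝ) + 1 ≤ N := by exact_mod_cast hi
  have hi0 : (0 : ℝ) ≤ i := Nat.cast_nonneg _
  set r1 : ℝ := C1 * s + i * (2 * κ * s) + κ * s with hr1
  have e1 : r1 - κ * s = C1 * s + i * (2 * κ * s) := by rw [hr1]; ring
  have e2 : r1 + κ * s = C1 * s + (i + 1 : ℕ) * (2 * κ * s) := by rw [hr1]; push_cast; ring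
  have hr1u : r1 + κ * s ≤ (C1 + 1) * s := by
    rw [e2]
    push_cast
    have : (i + 1 : ℝ) * (2 * κ * s) ≤ N * (2 * κ * s) :=
      mul_le_mul_of_nonneg_right hiN (by positivity)
    nlinarith
  refine ⟨r1, ?_, hr1u, fun p => ?_⟩
  · have : 0 ≤ (i : ℝ) * (2 * κ * s) := by positivity
    rw [hr1]; linarith
  -- radius layer
  have hbig : F (C1 * s + N * (2 * κ * s)) ≤ F ((C1 + 3) * s) := by
    apply hFm
    nlinarith
  have hrad : ν {z | r1 - κ * s < lQ z ∧ lQ z ≤ r1 + κ * s} ≤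
      ν {z | lQ z ≤ (C1 + 3) * s} / N := by
    have h1 : {z | lQ z ≤ r1 + κ * s} = {z | lQ z ≤ r1 - κ * s} ∪
        {z | r1 - κ * s < lQ z ∧ lQ z ≤ r1 + κ * s} := by
      ext z
      simp only [mem_setOf_eq, mem_union]
      constructor
      · intro h5
        by_cases h6 : lQ z ≤ r1 - κ * s
        · exact Or.inl h6
        · exact Or.inr ⟨not_le.1 h6, h5⟩
      · rintro (h5 | ⟨_, h5⟩)
        · linarith
        · exact h5
    have h2 : F (r1 + κ * s) = F (r1 - κ * s) +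
        ν {z | r1 - κ * s < lQ z ∧ lQ z ≤ r1 + κ * s} := by
      show ν {z | lQ z ≤ r1 + κ * s} = _
      rw [h1, measure_union]
      · rw [Set.disjoint_left]
        rintro z h5 ⟨h6, _⟩
        exact absurd h5 (not_le.2 h6)
      · have : {z | r1 - κ * s < lQ z ∧ lQ z ≤ r1 + κ * s} =
          {z | r1 - κ * s < lQ z} ∩ {z | lQ z ≤ r1 + κ * s} := by ext z; simp
        rw [this]
        exact (measurableSet_lt measurable_const h.l_meas).inter
          (measurableSet_le h.l_meas measurable_const)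
    have h3 : F (r1 + κ * s) ≤ F (r1 - κ * s) + F ((C1 + 3) * s) / N := by
      rw [e2, e1]
      refine hi2.trans ?_
      gcongr
    have h4 : F (r1 - κ * s) ≠ ⊤ := by
      refine ne_top_of_le_ne_top hfin (hFm ?_)
      nlinarith
    rw [h2] at h3
    exact (ENNReal.add_le_add_iff_left h4).1 h3
  -- facet layers
  have hfac : ∀ j, ν {z | lQ z ≤ r1 + κ * s ∧ p j - C * (κ * s) < b j z ∧
      b j z ≤ p j + C * (κ * s)} ≤ ν {z | lQ z ≤ (C1 + 3) * s} / N := by
    intro j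
    set n0 : ℕ := ⌈2 * C * κ * s / β⌉₊ with hn0
    have h1 : 2 * C * κ * s / β ≤ n0 := Nat.le_ceil _
    have h2 : (n0 : ℝ) ≤ 2 * (2 * C * κ * s / β) := by
      have h3 := (Nat.ceil_lt_add_one (a := 2 * C * κ * s / β)
        (by have := h.β_pos; positivity)).le
      have h4 : 1 ≤ 2 * C * κ * s / β := by
        rw [le_div_iff₀ h.β_pos]; linarith
      linarith
    have h3 := h.layer_le j (r1 + κ * s) (p j - C * (κ * s)) (p j + C * (κ * s)) N n0 (by
      rw [div_le_iff₀ h.β_pos] at h1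
      linarith)
    have h4 : (N : ℝ) * (n0 * C) ≤ s := by
      have h5 : (N : ℝ) * (n0 * C) ≤ N * (2 * (2 * C * κ * s / β) * C) := by
        apply mul_le_mul_of_nonneg_left _ (Nat.cast_nonneg _)
        exact mul_le_mul_of_nonneg_right h2 (by linarith)
      have h6 : N * (2 * (2 * C * κ * s / β) * C) = (4 * C ^ 2 * N * κ) * s / β := by ring
      have h7 : (4 * C ^ 2 * N * κ) * s / β ≤ s := by
        rw [div_le_iff₀ h.β_pos, mul_comm s β]
        exact mul_le_mul_of_nonneg_right hκβ hs.le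
      linarith
    rw [ENNReal.le_div_iff_mul_le (Or.inl hN0) (Or.inl (ENNReal.natCast_ne_top _)), mul_comm]
    refine h3.trans (measure_mono fun z hz => ?_)
    have h8 : lQ z ≤ r1 + κ * s + N * (n0 * C) := hz
    show lQ z ≤ (C1 + 3) * s
    nlinarith
  calc ν (Kw lQ b (fun j => p j + C * (κ * s)) (r1 + κ * s))
      ≤ ν (Kw lQ b (fun j => p j - C * (κ * s)) (r1 - κ * s) ∪
          ({z | r1 - κ * s < lQ z ∧ lQ z ≤ r1 + κ * s} ∪
            ⋃ j, {z | lQ z ≤ r1 + κ * s ∧ p j - C * (κ * s) < b j z ∧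
              b j z ≤ p j + C * (κ * s)})) := measure_mono (Kw_sub _ _ _ _ _ _)
    _ ≤ ν (Kw lQ b (fun j => p j - C * (κ * s)) (r1 - κ * s)) +
          (ν {z | r1 - κ * s < lQ z ∧ lQ z ≤ r1 + κ * s} +
            ν (⋃ j, {z | lQ z ≤ r1 + κ * s ∧ p j - C * (κ * s) < b j z ∧
              b j z ≤ p j + C * (κ * s)})) :=
        (measure_union_le _ _).trans (add_le_add le_rfl (measure_union_le _ _))
    _ ≤ ν (Kw lQ b (fun j => p j - C * (κ * s)) (r1 - κ * s)) +
          (ν {z | lQ z ≤ (C1 + 3) * s} / N + ∑ j : J, ν {z | lQ z ≤ (C1 + 3) * s} / N) := by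
        gcongr
        refine (measure_iUnion_fintype_le ν _).trans (Finset.sum_le_sum fun j _ => hfac j)
    _ = _ := by
        rw [Finset.sum_const, Finset.card_univ, nsmul_eq_mul]
        congr 1
        rw [ENNReal.div_eq_inv_mul, ENNReal.div_eq_inv_mul]
        ring

end QLen

end Vale.Agent.P188.H540
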