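import Mathlib.Analysis.BoxIntegral.UnitPartition
import Mathlib.Analysis.Convex.Measure
import Mathlib.MeasureTheory.Measure.Haar.OfBasis
import Mathlib.Tactic

/-!
# P188, block DBOX: lattice points in dilated convex bodies
-/

set_option linter.all false

open MeasureTheory Set Filter Topology Submodule
open scoped Pointwise

namespace Vale.Agent.P188.H540

variable {k : ℕ}

/-- an integral vector as a real vector -/
def vec (w : Fin k → ℤ) : Fin k → ℝ := fun i => (w i : ℝ)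

theorem vec_injective : Function.Injective (vec (k := k)) := by
  intro w w' h
  funext i
  have h1 : (w i : ℝ) = (w' i : ℝ) := congrFun h i
  exact_mod_cast h1

theorem range_vec : (span ℤ (Set.range (Pi.basisFun ℝ (Fin k))) : Set (Fin k → ℝ)) =
    Set.range (vec (k := k)) := by
  ext v
  rw [SetLike.mem_coe, Module.Basis.mem_span_iff_repr_mem]
  simp only [Pi.basisFun_repr, mem_range]
  constructor
  · intro h
    choose w hw using h
    exact ⟨w, by funext i; simpa [vec] using hw i⟩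
  · rintro ⟨w, rfl⟩ i
    exact ⟨w i, by simp [vec]⟩

/-- lattice points of `x • P` -/
def LP (P : Set (Fin k → ℝ)) (x : ℝ) : Set (Fin k → ℤ) := {w | vec w ∈ x • P}

theorem card_LP {P : Set (Fin k → ℝ)} {x : ℝ} (hx : 0 < x) :
    (LP P x).ncard = Nat.card ↑(P ∩ x⁻¹ • (span ℤ (Set.range (Pi.basisFun ℝ (Fin k))))) := by
  have hx0 : x ≠ 0 := hx.ne'
  have h1 : (P ∩ x⁻¹ • (span ℤ (Set.range (Pi.basisFun ℝ (Fin k))) : Set (Fin k → ℝ))) =
      (fun w => x⁻¹ • vec w) '' (LP P x) := by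
    ext v
    rw [range_vec]
    constructor
    · rintro ⟨h1, h2⟩
      rw [Set.mem_smul_set] at h2
      obtain ⟨_, ⟨w, rfl⟩, rfl⟩ := h2
      exact ⟨w, (Set.mem_smul_set_iff_inv_smul_mem₀ hx0 _ _).2 h1, rfl⟩
    · rintro ⟨w, hw, rfl⟩
      exact ⟨(Set.mem_smul_set_iff_inv_smul_mem₀ hx0 _ _).1 hw,
        Set.smul_mem_smul_set ⟨w, rfl⟩⟩
  show (LP P x).ncard = Nat.card ↑(P ∩ x⁻¹ • (span ℤ (Set.range (Pi.basisFun ℝ (Fin k))) :
    Set (Fin k → ℝ)))
  rw [h1, Nat.card_coe_set_eq, Set.ncard_image_of_injective]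
  intro w w' h
  exact vec_injective (smul_right_injective _ (inv_ne_zero hx0) h)

theorem LP_finite {P : Set (Fin k → ℝ)} (hb : Bornology.IsBounded P) (x : ℝ) : (LP P x).Finite := by
  have h1 : Bornology.IsBounded (x • P) := hb.smul₀ x
  have h2 := ZSpan.setFinite_inter (b := Pi.basisFun ℝ (Fin k)) (s := x • P) h1
  refine Set.Finite.of_finite_image (f := vec) (h2.subset ?_) vec_injective.injOn
  rintro _ ⟨w, hw, rfl⟩
  refine ⟨hw, ?_⟩
  rw [range_vec]
  exact ⟨w, rfl⟩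

theorem LP_mono {P : Set (Fin k → ℝ)} (hc : Convex ℝ P) (h0 : (0 : Fin k → ℝ) ∈ P) {x y : ℝ}
    (hx : 0 < x) (hxy : x ≤ y) : x • P ⊆ y • P := by
  rintro _ ⟨v, hv, rfl⟩
  have hy : 0 < y := hx.trans_le hxy
  refine ⟨(x / y) • v, ?_, ?_⟩
  · have := hc.smul_mem_of_zero_mem h0 hv (t := x / y)
      ⟨by positivity, by rw [div_le_one hy]; exact hxy⟩
    exact this
  · show y • ((x / y) • v) = x • v
    rw [smul_smul, mul_div_cancel₀ _ hy.ne']

/-- **the number of lattice points of a dilated convex body** -/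
theorem tendsto_LP {P : Set (Fin k → ℝ)} (hc : Convex ℝ P) (hb : Bornology.IsBounded P)
    (hm : MeasurableSet P) (h0 : (0 : Fin k → ℝ) ∈ P) :
    Tendsto (fun x : ℝ => ((LP P x).ncard : ℝ) / x ^ k) atTop (𝓝 (volume.real P)) := by
  have h1 := tendsto_card_div_pow_atTop_volume' P hb hm (hc.addHaar_frontier volume)
    (fun x y hx hxy => LP_mono hc h0 hx hxy)
  refine h1.congr' ?_
  filter_upwards [eventually_gt_atTop 0] with x hx
  rw [card_LP hx, Fintype.card_fin]

/-- dilating by `t > 1` close to `1` adds few lattice points -/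
theorem lat_ratio {P : Set (Fin k → ℝ)} (hc : Convex ℝ P) (hb : Bornology.IsBounded P)
    (hm : MeasurableSet P) (hi : (0 : Fin k → ℝ) ∈ interior P) {ε : ℝ} (hε : 0 < ε) :
    ∃ t : ℝ, 1 < t ∧ ∃ s₀ : ℝ, 0 < s₀ ∧ ∀ s : ℝ, s₀ ≤ s →
      ((LP P (t * s)).ncard : ℝ) ≤ (1 + ε) * (LP P s).ncard := by
  have h0 : (0 : Fin k → ℝ) ∈ P := interior_subset hi
  have hv : 0 < volume.real P := by
    rw [Measure.real, ENNReal.toReal_pos_iff]
    refine ⟨?_, hb.measure_lt_top⟩
    exact lt_of_lt_of_le (isOpen_interior.measure_pos volume ⟨0, hi⟩)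
      (measure_mono interior_subset)
  have hT := tendsto_LP hc hb hm h0
  -- choose `t` with `t ^ k < 1 + ε / 2`
  obtain ⟨t, ht1, ht2⟩ : ∃ t : ℝ, 1 < t ∧ t ^ k < 1 + ε / 2 := by
    have hcont : Tendsto (fun t : ℝ => t ^ k) (𝓝[>] 1) (𝓝 1) := by
      have : Tendsto (fun t : ℝ => t ^ k) (𝓝 1) (𝓝 (1 ^ k)) := (continuous_pow k).tendsto 1
      rw [one_pow] at this
      exact this.mono_left nhdsWithin_le_nhds
    have h1 : ∀ᶠ t : ℝ in 𝓝[>] 1, t ^ k < 1 + ε / 2 :=
      hcont.eventually_lt_const (by linarith)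
    obtain ⟨t, ht, ht'⟩ := (h1.and self_mem_nhdsWithin).exists
    exact ⟨t, ht', ht⟩
  refine ⟨t, ht1, ?_⟩
  have hT2 : Tendsto (fun s : ℝ => ((LP P (t * s)).ncard : ℝ) / (t * s) ^ k) atTop
      (𝓝 (volume.real P)) := hT.comp (tendsto_id.const_mul_atTop (by linarith))
  have hT3 : Tendsto (fun s : ℝ => ((LP P (t * s)).ncard : ℝ) / s ^ k) atTop
      (𝓝 (volume.real P * t ^ k)) := by
    refine (hT2.mul_const (t ^ k)).congr' ?_
    filter_upwards [eventually_gt_atTop 0] with s hs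
    have : (t * s) ^ k = t ^ k * s ^ k := mul_pow _ _ _
    rw [this]
    have h1 : t ^ k ≠ 0 := by positivity
    have h2 : s ^ k ≠ 0 := by positivity
    field_simp
  have hT4 : Tendsto (fun s : ℝ => (1 + ε) * (((LP P s).ncard : ℝ) / s ^ k)) atTop
      (𝓝 ((1 + ε) * volume.real P)) := hT.const_mul _
  have hlt : volume.real P * t ^ k < (1 + ε) * volume.real P := by nlinarith
  have hev := hT3.eventually_lt hT4 hlt
  obtain ⟨s₀, hs₀⟩ := (hev.and (eventually_gt_atTop 0)).exists_forall_of_atTop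
  refine ⟨max s₀ 1, by positivity, fun s hs => ?_⟩
  obtain ⟨h1, h2⟩ := hs₀ s ((le_max_left _ _).trans hs)
  have h3 : (0 : ℝ) < s ^ k := by positivity
  have h4 : (1 + ε) * (((LP P s).ncard : ℝ) / s ^ k) = ((1 + ε) * (LP P s).ncard) / s ^ k := by ring
  rw [h4, div_lt_div_iff_of_pos_right h3] at h1
  exact h1.le

end Vale.Agent.P188.H540
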