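import Vale.Agent.P188.H540.Lattice

/-!
# P188, block DBOX: lattice points in dilated convex bodies, uniform versions
-/

set_option linter.all false

open MeasureTheory Set Filter Topology Submodule
open scoped Pointwise

namespace Vale.Agent.P188.H540

variable {k : ℕ}

theorem volume_pos {P : Set (Fin k → ℝ)} (hb : Bornology.IsBounded P)
    (hi : (0 : Fin k → ℝ) ∈ interior P) : 0 < volume.real P := by
  rw [Measure.real, ENNReal.toReal_pos_iff]
  exact ⟨lt_of_lt_of_le (isOpen_interior.measure_pos volume ⟨0, hi⟩)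
    (measure_mono interior_subset), hb.measure_lt_top⟩

/-- dilating by `t > 1` close to `1` (depending only on the dimension) adds few lattice points -/
theorem lat_ratio' (k : ℕ) {ε : ℝ} (hε : 0 < ε) :
    ∃ t : ℝ, 1 < t ∧ ∀ P : Set (Fin k → ℝ), Convex ℝ P → Bornology.IsBounded P →
      MeasurableSet P → (0 : Fin k → ℝ) ∈ interior P → ∃ s₀ : ℝ, 0 < s₀ ∧ ∀ s : ℝ, s₀ ≤ s →
      ((LP P (t * s)).ncard : ℝ) ≤ (1 + ε) * (LP P s).ncard := by
  obtain ⟨t, ht1, ht2⟩ : ∃ t : ℝ, 1 < t ∧ t ^ k < 1 + ε / 2 := by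
    have hcont : Tendsto (fun t : ℝ => t ^ k) (𝓝[>] 1) (𝓝 1) := by
      have : Tendsto (fun t : ℝ => t ^ k) (𝓝 1) (𝓝 (1 ^ k)) := (continuous_pow k).tendsto 1
      rw [one_pow] at this
      exact this.mono_left nhdsWithin_le_nhds
    have h1 : ∀ᶠ t : ℝ in 𝓝[>] 1, t ^ k < 1 + ε / 2 :=
      hcont.eventually_lt_const (by linarith)
    obtain ⟨t, ht, ht'⟩ := (h1.and self_mem_nhdsWithin).exists
    exact ⟨t, ht', ht⟩
  refine ⟨t, ht1, fun P hc hb hm hi => ?_⟩
  have h0 : (0 : Fin k → ℝ) ∈ P := interior_subset hi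
  have hv := volume_pos hb hi
  have hT := tendsto_LP hc hb hm h0
  have hT2 : Tendsto (fun s : ℝ => ((LP P (t * s)).ncard : ℝ) / (t * s) ^ k) atTop
      (𝓝 (volume.real P)) := hT.comp (tendsto_id.const_mul_atTop (by linarith))
  have hT3 : Tendsto (fun s : ℝ => ((LP P (t * s)).ncard : ℝ) / s ^ k) atTop
      (𝓝 (volume.real P * t ^ k)) := by
    refine (hT2.mul_const (t ^ k)).congr' ?_
    filter_upwards [eventually_gt_atTop 0] with s hs
    have : (t * s) ^ k = t ^ k * s ^ k := mul_pow _ _ _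
    rw [this]
    have h1 : t ^ k ≠ 0 := by positivity
    have h2 : s ^ k ≠ 0 := by positivity
    field_simp
  have hT4 : Tendsto (fun s : ℝ => (1 + ε) * (((LP P s).ncard : ℝ) / s ^ k)) atTop
      (𝓝 ((1 + ε) * volume.real P)) := hT.const_mul _
  have hlt : volume.real P * t ^ k < (1 + ε) * volume.real P := by nlinarith
  have hev := hT3.eventually_lt hT4 hlt
  obtain ⟨s₀, hs₀⟩ := (hev.and (eventually_gt_atTop 0)).exists_forall_of_atTop
  refine ⟨max s₀ 1, by positivity, fun s hs => ?_⟩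
  obtain ⟨h1, h2⟩ := hs₀ s ((le_max_left _ _).trans hs)
  have h3 : (0 : ℝ) < s ^ k := by positivity
  have h4 : (1 + ε) * (((LP P s).ncard : ℝ) / s ^ k) = ((1 + ε) * (LP P s).ncard) / s ^ k := by ring
  rw [h4, div_lt_div_iff_of_pos_right h3] at h1
  exact h1.le

/-- lattice points of two homothetic convex bodies -/
theorem lat_dbl {P : Set (Fin k → ℝ)} (hc : Convex ℝ P) (hb : Bornology.IsBounded P)
    (hm : MeasurableSet P) (hi : (0 : Fin k → ℝ) ∈ interior P) {A a : ℝ} (hA : 0 < A) (ha : 0 < a) :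
    ∃ C s₀ : ℝ, 0 < s₀ ∧ 0 ≤ C ∧ ∀ s : ℝ, s₀ ≤ s →
      ((LP P (A * s)).ncard : ℝ) ≤ C * (LP P (a * s)).ncard := by
  have h0 : (0 : Fin k → ℝ) ∈ P := interior_subset hi
  have hv := volume_pos hb hi
  have hT := tendsto_LP hc hb hm h0
  have hA' : Tendsto (fun s : ℝ => ((LP P (A * s)).ncard : ℝ) / (A * s) ^ k) atTop
      (𝓝 (volume.real P)) := hT.comp (tendsto_id.const_mul_atTop hA)
  have ha' : Tendsto (fun s : ℝ => ((LP P (a * s)).ncard : ℝ) / (a * s) ^ k) atTop
      (𝓝 (volume.real P)) := hT.comp (tendsto_id.const_mul_atTop ha)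
  set v := volume.real P with hvdef
  have h1 := hA'.eventually_lt_const (show v < 2 * v by linarith)
  have h2 := ha'.eventually_const_lt (show v / 2 < v by linarith)
  obtain ⟨s₀, hs₀⟩ := ((h1.and h2).and (eventually_gt_atTop 0)).exists_forall_of_atTop
  refine ⟨4 * (A / a) ^ k, max s₀ 1, by positivity, by positivity, fun s hs => ?_⟩
  obtain ⟨⟨h3, h4⟩, h5⟩ := hs₀ s ((le_max_left _ _).trans hs)
  have hAs : 0 < (A * s) ^ k := by positivity
  have has : 0 < (a * s) ^ k := by positivity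
  rw [div_lt_iff₀ hAs] at h3
  rw [lt_div_iff₀ has] at h4
  have h6 : (A * s) ^ k = (A / a) ^ k * (a * s) ^ k := by
    rw [← mul_pow]
    congr 1
    field_simp
  calc ((LP P (A * s)).ncard : ℝ) ≤ 2 * v * (A * s) ^ k := h3.le
    _ = 4 * (A / a) ^ k * (v / 2 * (a * s) ^ k) := by rw [h6]; ring
    _ ≤ 4 * (A / a) ^ k * (LP P (a * s)).ncard := by gcongr

/-- lattice vectors of norm at most `x` -/
theorem LP_ball {x : ℝ} (hx : 0 < x) :
    LP (Metric.closedBall (0 : Fin k → ℝ) 1) x = {w | ‖vec w‖ ≤ x} := by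
  ext w
  simp only [LP, mem_setOf_eq, mem_smul_set_iff_inv_smul_mem₀ hx.ne', mem_closedBall_zero_iff]
  rw [norm_smul, norm_inv, Real.norm_eq_abs, abs_of_pos hx, inv_mul_le_iff₀ hx, mul_one]

/-- doubling for the cubes -/
theorem ball_dbl (k : ℕ) {A a : ℝ} (hA : 0 < A) (ha : 0 < a) :
    ∃ C s₀ : ℝ, 0 < s₀ ∧ 0 ≤ C ∧ ∀ s : ℝ, s₀ ≤ s →
      (({w : Fin k → ℤ | ‖vec w‖ ≤ A * s}).ncard : ℝ) ≤
        C * ({w : Fin k → ℤ | ‖vec w‖ ≤ a * s}).ncard := by
  obtain ⟨C, s₀, hs₀, hC, h⟩ := lat_dbl (k := k) (P := Metric.closedBall 0 1)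
    (convex_closedBall _ _) Metric.isBounded_closedBall Metric.isClosed_closedBall.measurableSet
    (by
      rw [mem_interior_iff_mem_nhds]
      exact Metric.closedBall_mem_nhds _ one_pos) hA ha
  refine ⟨C, s₀, hs₀, hC, fun s hs => ?_⟩
  have hs0 : 0 < s := hs₀.trans_le hs
  have := h s hs
  rw [LP_ball (by positivity), LP_ball (by positivity)] at this
  exact this

theorem ball_finite (x : ℝ) : {w : Fin k → ℤ | ‖vec w‖ ≤ x}.Finite := by
  have h1 := LP_finite (k := k) (P := Metric.closedBall 0 x) Metric.isBounded_closedBall 1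
  refine h1.subset fun w hw => ?_
  show vec w ∈ (1 : ℝ) • Metric.closedBall (0 : Fin k → ℝ) x
  rw [one_smul, mem_closedBall_zero_iff]
  exact hw

end Vale.Agent.P188.H540
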