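import Vale.Agent.P188.Z1.Flat
import Vale.Agent.P188.Z1.Fat
import Vale.Agent.P188.H540.Lattice

/-!
# P188, block DBOX: heights and windows
-/

set_option linter.all false

open MeasureTheory Set Filter
open Vale.Agent.P188.H530 (hgt hgt_mul)
open Vale.Agent.P188.H540 (vec vec_injective LP)
open scoped Pointwise

namespace Vale.Agent.P188.Z1.DB

variable {S : Type} [Group S] [MeasurableSpace S] {Γ : Type} [Group Γ]
  {V : Type} [AddCommGroup V] [Module ℝ V] {k : ℕ} (M : RModel S Γ V k)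

/-! ### heights -/

theorem θ_vec (w : Fin k → ℤ) : M.θ (M.τ w) = vec w := M.θ_τ w

theorem θ_eq_vec (z : S) : M.θ z = vec (Multiplicative.toAdd (M.η z)) := rfl

theorem θ_sec (z : S) : M.θ (M.sec z) = M.θ z := by
  unfold RModel.sec
  rw [θ_vec]
  rfl

theorem η_sec (z : S) : M.η (M.sec z) = M.η z := by
  unfold RModel.sec
  rw [M.η_τ]
  rfl

theorem η_of_θ {z : S} (h : M.θ z = 0) : M.η z = 1 := by
  have h1 : vec (Multiplicative.toAdd (M.η z)) = vec (0 : Fin k → ℤ) := by
    rw [← θ_eq_vec, h]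
    funext i
    simp [vec]
  have h2 := vec_injective h1
  exact Multiplicative.toAdd.injective h2

theorem θ_of_η {z : S} (h : M.η z = 1) : M.θ z = 0 := by
  rw [θ_eq_vec, h]
  funext i
  simp [vec]

/-! ### the window -/

theorem en_nonneg {k : ℕ} (b : Ht k →L[ℝ] ℝ) : 0 ≤ en b := Real.sqrt_nonneg _

theorem apply_eq_sum {k : ℕ} (b : Ht k →L[ℝ] ℝ) (x : Ht k) : b x = ∑ i, x i * sh b i := by
  have h : x = ∑ i, x i • (Pi.single i (1 : ℝ) : Ht k) := by
    funext j
    simp [Finset.sum_apply, Pi.single_apply]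
  conv_lhs => rw [h]
  rw [map_sum]
  refine Finset.sum_congr rfl fun i _ => ?_
  rw [map_smul]
  rfl

theorem en_pos {k : ℕ} {b : Ht k →L[ℝ] ℝ} (hb : b ≠ 0) : 0 < en b := by
  have h1 : ∃ i, sh b i ≠ 0 := by
    by_contra hcon
    push Not at hcon
    apply hb
    ext x
    rw [apply_eq_sum]
    simp [hcon]
  obtain ⟨i, hi⟩ := h1
  refine Real.sqrt_pos.2 ?_
  have h2 : 0 < sh b i ^ 2 := by positivity
  exact lt_of_lt_of_le h2 (Finset.single_le_sum (f := fun i => sh b i ^ 2)
    (fun j _ => sq_nonneg _) (Finset.mem_univ i))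

/-- the window is bounded -/
theorem exists_window_bdd : ∃ C : ℝ, 0 < C ∧ ∀ (x : Ht k) (t : ℝ), 0 ≤ t →
    (∀ b ∈ M.Φ, b x ≤ t * en b) → ‖x‖ ≤ C * t := by
  classical
  -- lower bounds
  set A : ℝ := ∑ b ∈ M.Φ, M.mult b * en b with hA
  have hA0 : 0 ≤ A := Finset.sum_nonneg fun b hb => mul_nonneg (M.mult_pos b hb).le (en_nonneg b)
  have hlow : ∀ (x : Ht k) (t : ℝ), 0 ≤ t → (∀ b ∈ M.Φ, b x ≤ t * en b) → ∀ b ∈ M.Φ,
      |b x| ≤ t * (en b + A / M.mult b) := by
    intro x t ht hx b hb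
    have h1 : ∑ b ∈ M.Φ, M.mult b * b x = 0 := by
      have := congrArg (fun f : Ht k →L[ℝ] ℝ => f x) M.unimod
      simpa [ContinuousLinearMap.sum_apply] using this
    have h2 : M.mult b * b x + ∑ b' ∈ M.Φ.erase b, M.mult b' * b' x = 0 := by
      exact (Finset.add_sum_erase M.Φ (fun b' => M.mult b' * b' x) hb).trans h1
    have h3 : ∑ b' ∈ M.Φ.erase b, M.mult b' * b' x ≤ t * A := by
      calc ∑ b' ∈ M.Φ.erase b, M.mult b' * b' x
          ≤ ∑ b' ∈ M.Φ.erase b, M.mult b' * (t * en b') :=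
            Finset.sum_le_sum fun b' hb' => mul_le_mul_of_nonneg_left
              (hx b' (Finset.mem_of_mem_erase hb')) (M.mult_pos b' (Finset.mem_of_mem_erase hb')).le
        _ ≤ ∑ b' ∈ M.Φ, M.mult b' * (t * en b') :=
            Finset.sum_le_sum_of_subset_of_nonneg (Finset.erase_subset _ _)
              fun b' hb' _ => mul_nonneg (M.mult_pos b' hb').le (mul_nonneg ht (en_nonneg b'))
        _ = t * A := by
            rw [hA, Finset.mul_sum]
            exact Finset.sum_congr rfl fun b' _ => by ring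
    have hm := M.mult_pos b hb
    have h4 : -(t * (A / M.mult b)) ≤ b x := by
      have h5 : -(t * A) ≤ M.mult b * b x := by linarith
      have h6 : -(t * (A / M.mult b)) = (-(t * A)) / M.mult b := by ring
      rw [h6, div_le_iff₀ hm]
      linarith
    rw [abs_le]
    have h7 : 0 ≤ t * en b := mul_nonneg ht (en_nonneg b)
    have h8 : 0 ≤ t * (A / M.mult b) := by positivity
    constructor
    · have : t * (en b + A / M.mult b) = t * en b + t * (A / M.mult b) := by ring
      linarith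
    · have : t * (en b + A / M.mult b) = t * en b + t * (A / M.mult b) := by ring
      linarith [hx b hb]
  -- the injective linear map
  set T : Ht k →ₗ[ℝ] (M.Φ → ℝ) := LinearMap.pi fun b => (b : Ht k →L[ℝ] ℝ).toLinearMap with hT
  have hTker : LinearMap.ker T = ⊥ := by
    rw [LinearMap.ker_eq_bot']
    intro x hx
    apply M.Φ_span x
    intro b hb
    have := congrFun hx ⟨b, hb⟩
    simpa [hT] using this
  obtain ⟨K, hK0, hK⟩ := LinearMap.exists_antilipschitzWith T hTker
  set C' : ℝ := ∑ b ∈ M.Φ, (en b + A / M.mult b) with hC'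
  have hterm : ∀ b ∈ M.Φ, 0 ≤ en b + A / M.mult b := fun b hb =>
    add_nonneg (en_nonneg b) (div_nonneg hA0 (M.mult_pos b hb).le)
  have hC'0 : 0 ≤ C' := Finset.sum_nonneg hterm
  refine ⟨K * C' + 1, by positivity, fun x t ht hx => ?_⟩
  have h1 : ‖x‖ ≤ K * ‖T x‖ := by
    have := hK.le_mul_dist x 0
    rw [map_zero, dist_zero_right, dist_zero_right] at this
    exact this
  have h2 : ‖T x‖ ≤ t * C' := by
    rw [pi_norm_le_iff_of_nonneg (mul_nonneg ht hC'0)]
    rintro ⟨b, hb⟩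
    have h3 := hlow x t ht hx b hb
    have h4 : en b + A / M.mult b ≤ C' := Finset.single_le_sum (f := fun b => en b + A / M.mult b)
      (fun b hb => hterm b hb) hb
    calc ‖T x ⟨b, hb⟩‖ = |b x| := rfl
      _ ≤ t * (en b + A / M.mult b) := h3
      _ ≤ t * C' := mul_le_mul_of_nonneg_left h4 ht
  calc ‖x‖ ≤ K * ‖T x‖ := h1
    _ ≤ K * (t * C') := mul_le_mul_of_nonneg_left h2 K.2
    _ ≤ (K * C' + 1) * t := by nlinarith

end Vale.Agent.P188.Z1.DB
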